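import Mathlib

/-!
# Counting lemmas for the Zarankiewicz bound (P040, helper7)

`dz_le`: if `P + N = c` then the number `P (P - 1) + N (N - 1)` of ordered pairs inside the two
groups is at least `2 * (c / 2) * ((c - 1) / 2)`.

`pairs_lower`: if the indices carry nonzero real signs and every two distinct indices of equal
sign are joined (in one of the two orders) by a pair of `T`, then
`(c / 2) * ((c - 1) / 2) ≤ T.card`, where `c` is the number of indices.
-/

namespace Vale.Agent.Lib.P040.H7

theorem dz_le (P N c t : ℕ) (h : P + N = c) (h2 : P * P - P + (N * N - N) ≤ 2 * t) :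
    (c / 2) * ((c - 1) / 2) ≤ t := by
  have hP : P ≤ P * P := Nat.le_mul_self P
  have hN : N ≤ N * N := Nat.le_mul_self N
  have h3 : P * P + N * N ≤ 2 * t + P + N := by omega
  rcases Nat.even_or_odd' c with ⟨k, hk | hk⟩
  · have e1 : c / 2 = k := by omega
    have e2 : (c - 1) / 2 = k - 1 := by omega
    rw [e1, e2]
    rcases Nat.eq_zero_or_pos k with hk0 | hkpos
    · rw [hk0]
      simp
    · obtain ⟨j, rfl⟩ : ∃ j, k = j + 1 := ⟨k - 1, by omega⟩
      simp only [Nat.add_sub_cancel]
      subst hk
      zify at h3 h ⊢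
      have hsq : ((P : ℤ) + N) * ((P : ℤ) + N) = (2 * ((j : ℤ) + 1)) * (2 * ((j : ℤ) + 1)) := by
        rw [h]
      nlinarith [sq_nonneg ((P : ℤ) - N)]
  · have e1 : c / 2 = k := by omega
    have e2 : (c - 1) / 2 = k := by omega
    rw [e1, e2]
    subst hk
    have hne : (P : ℤ) - N ≠ 0 := by omega
    have h1 : 1 ≤ ((P : ℤ) - N) ^ 2 := by
      have hpos : 0 < ((P : ℤ) - N) ^ 2 := by positivity
      omega
    zify at h3 h ⊢
    have hsq : ((P : ℤ) + N) * ((P : ℤ) + N) = (2 * (k : ℤ) + 1) * (2 * (k : ℤ) + 1) := by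
      rw [h]
    nlinarith

theorem pairs_lower {ι : Type*} [Fintype ι] [DecidableEq ι] (s : ι → ℝ) (hs : ∀ i, s i ≠ 0)
    (T : Finset (ι × ι))
    (hT : ∀ i j, i ≠ j → 0 < s i * s j → (i, j) ∈ T ∨ (j, i) ∈ T) :
    (Fintype.card ι / 2) * ((Fintype.card ι - 1) / 2) ≤ T.card := by
  classical
  set Pos : Finset ι := Finset.univ.filter (fun i => 0 < s i) with hPos
  set Neg : Finset ι := Finset.univ.filter (fun i => s i < 0) with hNeg
  have hdisj : Disjoint Pos Neg := by
    rw [Finset.disjoint_left]
    intro i hi hi'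
    simp only [hPos, hNeg, Finset.mem_filter, Finset.mem_univ, true_and] at hi hi'
    linarith
  have hcard : Pos.card + Neg.card = Fintype.card ι := by
    rw [← Finset.card_union_of_disjoint hdisj, ← Finset.card_univ]
    congr 1
    ext i
    simp only [hPos, hNeg, Finset.mem_union, Finset.mem_filter, Finset.mem_univ, true_and,
      iff_true]
    rcases lt_or_gt_of_ne (hs i) with h | h
    · right
      exact h
    · left
      exact h
  have hsub : Pos.offDiag ∪ Neg.offDiag ⊆ T ∪ T.image Prod.swap := by
    intro p hp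
    rw [Finset.mem_union] at hp
    have hpos : 0 < s p.1 * s p.2 ∧ p.1 ≠ p.2 := by
      rcases hp with hp | hp
      · rw [Finset.mem_offDiag] at hp
        simp only [hPos, Finset.mem_filter, Finset.mem_univ, true_and] at hp
        exact ⟨mul_pos hp.1 hp.2.1, hp.2.2⟩
      · rw [Finset.mem_offDiag] at hp
        simp only [hNeg, Finset.mem_filter, Finset.mem_univ, true_and] at hp
        exact ⟨mul_pos_of_neg_of_neg hp.1 hp.2.1, hp.2.2⟩
    rw [Finset.mem_union]
    rcases hT p.1 p.2 hpos.2 hpos.1 with h | h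
    · left
      exact h
    · right
      rw [Finset.mem_image]
      exact ⟨(p.2, p.1), h, rfl⟩
  have hdisj2 : Disjoint Pos.offDiag Neg.offDiag := by
    rw [Finset.disjoint_left]
    intro p hp hp'
    rw [Finset.mem_offDiag] at hp hp'
    simp only [hPos, hNeg, Finset.mem_filter, Finset.mem_univ, true_and] at hp hp'
    linarith [hp.1, hp'.1]
  have hc1 : (Pos.offDiag ∪ Neg.offDiag).card =
      Pos.card * Pos.card - Pos.card + (Neg.card * Neg.card - Neg.card) := by
    rw [Finset.card_union_of_disjoint hdisj2, Finset.offDiag_card, Finset.offDiag_card]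
  have hc2 : (T ∪ T.image Prod.swap).card ≤ 2 * T.card := by
    have h1 : (T ∪ T.image Prod.swap).card ≤ T.card + (T.image Prod.swap).card :=
      Finset.card_union_le _ _
    have h2 : (T.image Prod.swap).card ≤ T.card := Finset.card_image_le
    omega
  apply dz_le Pos.card Neg.card _ T.card hcard
  rw [← hc1]
  exact le_trans (Finset.card_le_card hsub) hc2

end Vale.Agent.Lib.P040.H7
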