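import Mathlib

/-!
# Crossings between two stars over collinear base points (P040, helper7)

Points `(x, y)` and `(x', y')` strictly on the same side of the horizontal axis, and two points
`(a1, 0)`, `(a2, 0)` of the axis that lie strictly on the same side of the line through
`(x, y)` and `(x', y')`: then one of the two pairs of straight segments
`{(x,y)(a1,0), (x',y')(a2,0)}`, `{(x,y)(a2,0), (x',y')(a1,0)}` crosses.
-/

namespace Vale.Agent.Lib.P040.H7

/-- Twice the signed area of the triangle `(x,y)`, `(x',y')`, `(a,0)`: its sign tells on which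
side of the line through `(x,y)` and `(x',y')` the point `(a,0)` lies. -/
def side (x y x' y' a : ℝ) : ℝ := (y - y') * a + x * y' - x' * y

theorem frac_pos (N D : ℝ) (h1 : 0 < N) (h2 : N < D) : 0 < N / D ∧ N / D < 1 :=
  ⟨div_pos h1 (lt_trans h1 h2), (div_lt_one (lt_trans h1 h2)).mpr h2⟩

theorem frac_neg (N D : ℝ) (h1 : N < 0) (h2 : D < N) : 0 < N / D ∧ N / D < 1 :=
  ⟨div_pos_of_neg_of_neg h1 (lt_trans h2 h1), (div_lt_one_of_neg (lt_trans h2 h1)).mpr h2⟩

/-- Explicit crossing point of the segments `(x,y)(a1,0)` and `(x',y')(a2,0)`. -/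
theorem cross_of_params (x y x' y' a1 a2 D : ℝ) (hD : D = (x - a1) * y' - (x' - a2) * y)
    (h1 : 0 < (a2 - a1) * y' / D ∧ (a2 - a1) * y' / D < 1)
    (h2 : 0 < (a2 - a1) * y / D ∧ (a2 - a1) * y / D < 1) :
    (openSegment ℝ ((x, y) : ℝ × ℝ) (a1, 0) ∩ openSegment ℝ ((x', y') : ℝ × ℝ) (a2, 0)).Nonempty := by
  have hD0 : D ≠ 0 := by
    intro h
    rw [h, div_zero] at h1
    exact lt_irrefl _ h1.1
  refine ⟨((a2 - a1) * y' / D) • ((x, y) : ℝ × ℝ) + (1 - (a2 - a1) * y' / D) • ((a1, 0) : ℝ × ℝ),
    ⟨(a2 - a1) * y' / D, 1 - (a2 - a1) * y' / D, h1.1, by linarith [h1.2], by ring, rfl⟩,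
    ⟨(a2 - a1) * y / D, 1 - (a2 - a1) * y / D, h2.1, by linarith [h2.2], by ring, ?_⟩⟩
  apply Prod.ext
  · simp only [Prod.smul_mk, Prod.mk_add_mk, smul_eq_mul]
    field_simp
    rw [hD]
    ring
  · simp only [Prod.smul_mk, Prod.mk_add_mk, smul_eq_mul, mul_zero, add_zero]
    field_simp

/-- The crossing lemma for `a1 < a2`. -/
theorem cross_of_lt (x y x' y' a1 a2 : ℝ) (hyy : 0 < y * y') (ha : a1 < a2)
    (hs : 0 < side x y x' y' a1 * side x y x' y' a2) :
    (openSegment ℝ ((x, y) : ℝ × ℝ) (a1, 0) ∩ openSegment ℝ ((x', y') : ℝ × ℝ) (a2, 0)).Nonempty ∨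
    (openSegment ℝ ((x, y) : ℝ × ℝ) (a2, 0) ∩ openSegment ℝ ((x', y') : ℝ × ℝ) (a1, 0)).Nonempty := by
  unfold side at hs
  have hcase : (0 < (y - y') * a1 + x * y' - x' * y ∧ 0 < (y - y') * a2 + x * y' - x' * y) ∨
      ((y - y') * a1 + x * y' - x' * y < 0 ∧ (y - y') * a2 + x * y' - x' * y < 0) :=
    pos_and_pos_or_neg_and_neg_of_mul_pos hs
  have hy : (0 < y ∧ 0 < y') ∨ (y < 0 ∧ y' < 0) := pos_and_pos_or_neg_and_neg_of_mul_pos hyy
  rcases hy with ⟨hy1, hy2⟩ | ⟨hy1, hy2⟩
  · rcases hcase with ⟨hs1, hs2⟩ | ⟨hs1, hs2⟩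
    · left
      apply cross_of_params x y x' y' a1 a2 _ rfl
      · apply frac_pos
        · exact mul_pos (by linarith) hy2
        · nlinarith
      · apply frac_pos
        · exact mul_pos (by linarith) hy1
        · nlinarith
    · right
      apply cross_of_params x y x' y' a2 a1 _ rfl
      · apply frac_neg
        · exact mul_neg_of_neg_of_pos (by linarith) hy2
        · nlinarith
      · apply frac_neg
        · exact mul_neg_of_neg_of_pos (by linarith) hy1
        · nlinarith
  · rcases hcase with ⟨hs1, hs2⟩ | ⟨hs1, hs2⟩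
    · right
      apply cross_of_params x y x' y' a2 a1 _ rfl
      · apply frac_pos
        · exact mul_pos_of_neg_of_neg (by linarith) hy2
        · nlinarith
      · apply frac_pos
        · exact mul_pos_of_neg_of_neg (by linarith) hy1
        · nlinarith
    · left
      apply cross_of_params x y x' y' a1 a2 _ rfl
      · apply frac_neg
        · exact mul_neg_of_pos_of_neg (by linarith) hy2
        · nlinarith
      · apply frac_neg
        · exact mul_neg_of_pos_of_neg (by linarith) hy1
        · nlinarith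

/-- The crossing lemma: two base points strictly on the same side of the line through the two
apexes give a crossing of the two stars. -/
theorem cross_of_same_side (x y x' y' a1 a2 : ℝ) (hyy : 0 < y * y') (ha : a1 ≠ a2)
    (hs : 0 < side x y x' y' a1 * side x y x' y' a2) :
    (openSegment ℝ ((x, y) : ℝ × ℝ) (a1, 0) ∩ openSegment ℝ ((x', y') : ℝ × ℝ) (a2, 0)).Nonempty ∨
    (openSegment ℝ ((x, y) : ℝ × ℝ) (a2, 0) ∩ openSegment ℝ ((x', y') : ℝ × ℝ) (a1, 0)).Nonempty := by
  rcases lt_or_gt_of_ne ha with h | h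
  · exact cross_of_lt x y x' y' a1 a2 hyy h hs
  · exact (cross_of_lt x y x' y' a2 a1 hyy h (by rw [mul_comm]; exact hs)).symm

/-- If neither apex lies on the segment from the other apex to `(a,0)`, then `(a,0)` is not on
the line through the two apexes. -/
theorem side_ne_zero (x y x' y' a : ℝ) (hyy : 0 < y * y')
    (h1 : ((x', y') : ℝ × ℝ) ∉ segment ℝ ((x, y) : ℝ × ℝ) (a, 0))
    (h2 : ((x, y) : ℝ × ℝ) ∉ segment ℝ ((x', y') : ℝ × ℝ) (a, 0)) :
    side x y x' y' a ≠ 0 := by
  intro h
  unfold side at h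
  have hy0 : y ≠ 0 := by
    rintro rfl
    simp at hyy
  have hy0' : y' ≠ 0 := by
    rintro rfl
    simp at hyy
  have hpos : 0 < y' / y := by
    have : y' / y = y * y' / (y * y) := by field_simp
    rw [this]
    exact div_pos hyy (mul_self_pos.mpr hy0)
  rcases le_total (y' / y) 1 with hle | hge
  · apply h1
    refine ⟨y' / y, 1 - y' / y, hpos.le, by linarith, by ring, ?_⟩
    apply Prod.ext
    · simp only [Prod.smul_mk, Prod.mk_add_mk, smul_eq_mul]
      field_simp
      linarith
    · simp only [Prod.smul_mk, Prod.mk_add_mk, smul_eq_mul, mul_zero, add_zero]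
      field_simp
  · apply h2
    have hpos' : 0 < y / y' := by
      have : y / y' = (y' / y)⁻¹ := by rw [inv_div]
      rw [this]
      exact inv_pos.mpr hpos
    have hle' : y / y' ≤ 1 := by
      have : y / y' = (y' / y)⁻¹ := by rw [inv_div]
      rw [this]
      exact inv_le_one_of_one_le₀ hge
    refine ⟨y / y', 1 - y / y', hpos'.le, by linarith, by ring, ?_⟩
    apply Prod.ext
    · simp only [Prod.smul_mk, Prod.mk_add_mk, smul_eq_mul]
      field_simp
      linarith
    · simp only [Prod.smul_mk, Prod.mk_add_mk, smul_eq_mul, mul_zero, add_zero]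
      field_simp

end Vale.Agent.Lib.P040.H7
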